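import Crest.Agent.R163.Q3.D.B5.S0
import Crest.Agent.R163.Q3.D.B5.H

set_option autoImplicit false
set_option maxRecDepth 100000
set_option linter.all false
set_option Elab.async false

namespace Crest.Agent.R163.B5

theorem p0_6_1 : Ok2 par f6 ((((Box3.unit.r 0).l 1).r 0).l 1) (selB2 0 (selB2 0 (selB2 0 (selB2 0 C0 5444517870731876895254979196905230172159) 12582915) 256) 11747) :=
  Ok2.run hw hf6 ⟨459,19,19,7,12⟩ 58
    (.split 0 (.chk false 0) (.split 1 (.part 4094 (.chk false 0) (.split 0 (.chk false 0) (.split 0 (.chk false 0) (.split 1 (.chk false 0) (.chk false 0))))) (.part 4023 (.chk false 0) (.split 0 (.chk false 0) (.split 1 (.chk false 0) (.chk false 0))))))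
    (by decide +kernel)

theorem p0_6_2 : Ok2 par f6 ((((Box3.unit.r 0).l 1).r 0).r 1) (selB2 0 (selB2 0 (selB2 0 C0 5444517870731876895254979196905230172159) 12582915) 256) :=
  Ok2.run hw hf6 ⟨413,19,19,7,12⟩ 58
    (.part 2096991 (.chk false 0) (.split 0 (.chk false 0) (.split 0 (.chk false 0) (.split 1 (.chk false 0) (.chk false 0)))))
    (by decide +kernel)

theorem p0_6_3 : Ok2 par f6 (((Box3.unit.r 0).l 1).l 0) (selB2 0 (selB2 0 (selB2 0 C0 5444517870731876895254979196905230172159) 12582915) 256) :=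
  Ok2.run hw hf6 ⟨332,19,19,7,12⟩ 58
    (.chk false 0)
    (by decide +kernel)

theorem p0_6_4 : Ok2 par f6 ((Box3.unit.r 0).l 1) (selB2 1 (selB2 0 (selB2 0 C0 5444517870731876895254979196905230172159) 12582915) 256) :=
  Ok2.run hw hf6 ⟨319,19,19,7,12⟩ 58
    (.chk false 0)
    (by decide +kernel)

theorem p0_6_5 : Ok2 par f6 ((Box3.unit.r 0).r 1) (selB2 0 (selB2 0 C0 5444517870731876895254979196905230172159) 12582915) :=
  Ok2.run hw hf6 ⟨403,19,19,7,12⟩ 58
    (.part 4194289 (.chk false 0) (.split 0 (.chk false 0) (.split 1 (.chk false 0) (.split 0 (.chk false 0) (.split 1 (.chk false 0) (.chk false 0))))))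
    (by decide +kernel)

theorem p0_6_6 : Ok2 par f6 (Box3.unit.r 0) (selB2 1 (selB2 0 C0 5444517870731876895254979196905230172159) 12582915) :=
  Ok2.run hw hf6 ⟨290,19,19,7,12⟩ 58
    (.chk false 0)
    (by decide +kernel)

theorem p0_6_7 : Ok2 par f6 (Box3.unit.l 0) (selB2 0 C0 5444517870731876895254979196905230172159) :=
  Ok2.run hw hf6 ⟨290,19,19,7,12⟩ 58
    (.chk false 0)
    (by decide +kernel)

theorem p0_6_8 : Ok2 par f6 Box3.unit (selB2 1 C0 5444517870731876895254979196905230172159) :=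
  Ok2.run hw hf6 ⟨262,19,19,7,12⟩ 58
    (.chk false 2048)
    (by decide +kernel)

theorem p0_7_0 : Ok2 par f7 ((((Box3.unit.l 0).r 1).l 0).r 1) (selB2 1 (selB2 0 (selB2 0 (selB2 0 (selB2 0 C0 5444517870725382545761186205694418703871) 63) 537132799) 1407) 4) :=
  Ok2.run hw hf7 ⟨363,19,19,7,12⟩ 58
    (.chk false 0)
    (by decide +kernel)

theorem p0_7_1 : Ok2 par f7 ((((Box3.unit.l 0).r 1).l 0).r 1) (selB2 0 (selB2 0 (selB2 0 (selB2 0 (selB2 0 C0 5444517870725382545761186205694418703871) 63) 537132799) 1407) 4) :=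
  Ok2.run hw hf7 ⟨488,19,19,7,12⟩ 58
    (.split 0 (.chk false 0) (.part 92 (.chk false 0) (.split 1 (.chk false 0) (.part 1 (.chk false 0) (.split 0 (.part 1 (.chk false 0) (.split 1 (.chk false 0) (.split 0 (.chk false 0) (.chk false 0)))) (.part 2 (.chk false 0) (.split 1 (.chk false 0) (.split 0 (.chk false 0) (.split 1 (.chk false 0) (.split 0 (.chk false 0) (.chk false 0)))))))))))
    (by decide +kernel)

theorem p0_7_2 : Ok2 par f7 ((((Box3.unit.l 0).r 1).l 0).l 1) (selB2 0 (selB2 0 (selB2 0 (selB2 0 C0 5444517870725382545761186205694418703871) 63) 537132799) 1407) :=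
  Ok2.run hw hf7 ⟨354,19,19,7,12⟩ 58
    (.chk false 0)
    (by decide +kernel)

theorem p0_7_3 : Ok2 par f7 (((Box3.unit.l 0).r 1).l 0) (selB2 1 (selB2 0 (selB2 0 (selB2 0 C0 5444517870725382545761186205694418703871) 63) 537132799) 1407) :=
  Ok2.run hw hf7 ⟨341,19,19,7,12⟩ 58
    (.chk false 0)
    (by decide +kernel)

theorem p0_7_4 : Ok2 par f7 (((Box3.unit.l 0).r 1).r 0) (selB2 1 (selB2 0 (selB2 0 (selB2 0 C0 5444517870725382545761186205694418703871) 63) 537132799) 127040) :=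
  Ok2.run hw hf7 ⟨332,19,19,7,12⟩ 58
    (.chk false 0)
    (by decide +kernel)

theorem p0_7_5 : Ok2 par f7 (((Box3.unit.l 0).r 1).r 0) (selB2 0 (selB2 0 (selB2 0 (selB2 0 C0 5444517870725382545761186205694418703871) 63) 537132799) 127040) :=
  Ok2.run hw hf7 ⟨413,19,19,7,12⟩ 58
    (.split 1 (.chk false 0) (.split 0 (.part 63 (.chk false 0) (.split 1 (.chk false 0) (.part 23 (.chk false 0) (.split 0 (.chk false 0) (.chk false 0))))) (.part 1998 (.chk false 0) (.split 1 (.chk false 0) (.split 0 (.chk false 0) (.chk false 0))))))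
    (by decide +kernel)

theorem p0_7_6 : Ok2 par f7 ((Box3.unit.l 0).l 1) (selB2 0 (selB2 0 (selB2 0 C0 5444517870725382545761186205694418703871) 63) 537132799) :=
  Ok2.run hw hf7 ⟨319,19,19,7,12⟩ 58
    (.chk false 0)
    (by decide +kernel)

theorem p0_7_7 : Ok2 par f7 (Box3.unit.l 0) (selB2 1 (selB2 0 (selB2 0 C0 5444517870725382545761186205694418703871) 63) 537132799) :=
  Ok2.run hw hf7 ⟨290,19,19,7,12⟩ 58
    (.chk false 0)
    (by decide +kernel)

theorem p0_7_8 : Ok2 par f7 ((((((Box3.unit.r 0).r 1).l 0).r 1).l 0).l 1) (selB2 0 (selB2 0 (selB2 0 (selB2 0 (selB2 0 (selB2 0 C0 5444517870725382545761186205694418703871) 63) 34343485448) 3932281) 83) 270) :=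
  Ok2.run hw hf7 ⟨385,19,19,7,12⟩ 58
    (.chk false 0)
    (by decide +kernel)

theorem p0_7_9 : Ok2 par f7 ((((((Box3.unit.r 0).r 1).l 0).r 1).l 0).r 1) (selB2 0 (selB2 0 (selB2 0 (selB2 0 (selB2 0 (selB2 0 C0 5444517870725382545761186205694418703871) 63) 34343485448) 3932281) 83) 270) :=
  Ok2.run hw hf7 ⟨483,19,19,7,12⟩ 58
    (.part 1 (.chk false 0) (.split 0 (.part 7 (.chk false 0) (.split 1 (.chk false 0) (.split 0 (.chk false 0) (.chk false 0)))) (.part 10 (.chk false 0) (.split 1 (.chk false 0) (.split 0 (.part 1 (.chk false 0) (.split 1 (.chk false 0) (.split 0 (.chk false 0) (.chk false 0)))) (.part 2 (.chk false 0) (.split 1 (.chk false 0) (.split 0 (.chk false 0) (.chk false 0)))))))))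
    (by decide +kernel)

theorem p0_7_10 : Ok2 par f7 (((((Box3.unit.r 0).r 1).l 0).r 1).l 0) (selB2 1 (selB2 0 (selB2 0 (selB2 0 (selB2 0 (selB2 0 C0 5444517870725382545761186205694418703871) 63) 34343485448) 3932281) 83) 270) :=
  Ok2.run hw hf7 ⟨369,19,19,7,12⟩ 58
    (.chk false 0)
    (by decide +kernel)

theorem p0_7_11 : Ok2 par f7 (((((Box3.unit.r 0).r 1).l 0).r 1).r 0) (selB2 0 (selB2 0 (selB2 0 (selB2 0 (selB2 0 C0 5444517870725382545761186205694418703871) 63) 34343485448) 3932281) 83) :=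
  Ok2.run hw hf7 ⟨448,19,19,7,12⟩ 58
    (.part 417 (.chk false 0) (.split 1 (.chk false 0) (.part 16 (.chk false 0) (.split 0 (.split 1 (.chk false 0) (.part 9 (.chk false 0) (.split 0 (.chk false 0) (.chk false 0)))) (.chk false 0)))))
    (by decide +kernel)

theorem p0_7_12 : Ok2 par f7 ((((Box3.unit.r 0).r 1).l 0).l 1) (selB2 0 (selB2 0 (selB2 0 (selB2 0 (selB2 0 C0 5444517870725382545761186205694418703871) 63) 34343485448) 3932281) 83) :=
  Ok2.run hw hf7 ⟨345,19,19,7,12⟩ 58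
    (.chk false 0)
    (by decide +kernel)

theorem p0_7_13 : Ok2 par f7 (((Box3.unit.r 0).r 1).l 0) (selB2 1 (selB2 0 (selB2 0 (selB2 0 (selB2 0 C0 5444517870725382545761186205694418703871) 63) 34343485448) 3932281) 83) :=
  Ok2.run hw hf7 ⟨332,19,19,7,12⟩ 58
    (.chk false 0)
    (by decide +kernel)

theorem p0_7_14 : Ok2 par f7 (((Box3.unit.r 0).r 1).r 0) (selB2 0 (selB2 0 (selB2 0 (selB2 0 C0 5444517870725382545761186205694418703871) 63) 34343485448) 3932281) :=
  Ok2.run hw hf7 ⟨363,19,19,7,12⟩ 58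
    (.part 8020 (.chk false 0) (.split 1 (.chk false 0) (.chk false 0)))
    (by decide +kernel)

theorem p0_7_15 : Ok2 par f7 ((Box3.unit.r 0).r 1) (selB2 1 (selB2 0 (selB2 0 (selB2 0 C0 5444517870725382545761186205694418703871) 63) 34343485448) 3932281) :=
  Ok2.run hw hf7 ⟨319,19,19,7,12⟩ 58
    (.chk false 0)
    (by decide +kernel)

theorem p0_7_16 : Ok2 par f7 ((Box3.unit.r 0).l 1) (selB2 0 (selB2 0 (selB2 0 C0 5444517870725382545761186205694418703871) 63) 34343485448) :=
  Ok2.run hw hf7 ⟨319,19,19,7,12⟩ 58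
    (.chk false 0)
    (by decide +kernel)

theorem p0_7_17 : Ok2 par f7 (Box3.unit.r 0) (selB2 1 (selB2 0 (selB2 0 C0 5444517870725382545761186205694418703871) 63) 34343485448) :=
  Ok2.run hw hf7 ⟨290,19,19,7,12⟩ 58
    (.chk false 0)
    (by decide +kernel)

theorem p0_7_18 : Ok2 par f7 Box3.unit (selB2 1 (selB2 0 C0 5444517870725382545761186205694418703871) 63) :=
  Ok2.run hw hf7 ⟨304,25,25,7,13⟩ 58
    (.chk true 0)
    (by decide +kernel)

theorem p0_7_19 : Ok2 par f7 Box3.unit (selB2 1 C0 5444517870725382545761186205694418703871) :=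
  Ok2.run hw hf7 ⟨262,19,19,7,12⟩ 58
    (.chk false 1024)
    (by decide +kernel)

theorem p0_8_0 : Ok2 par f8 Box3.unit (selB2 1 (selB2 0 C0 5444517870735015415413948656508712474111) 32767) :=
  Ok2.run hw hf8 ⟨315,25,25,7,13⟩ 58
    (.chk true 0)
    (by decide +kernel)

theorem p0_8_1 : Ok2 par f8 Box3.unit (selB2 0 (selB2 0 C0 5444517870735015415413948656508712474111) 32767) :=
  Ok2.run hw hf8 ⟨425,19,19,7,12⟩ 58
    (.split 0 (.chk false 0) (.part 3 (.chk false 0) (.split 1 (.split 1 (.split 0 (.chk false 0) (.split 1 (.part 1 (.chk false 0) (.split 0 (.chk false 0) (.split 1 (.chk false 0) (.chk false 0)))) (.chk false 0))) (.chk false 0)) (.chk false 0))))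
    (by decide +kernel)

theorem p0_8_2 : Ok2 par f8 Box3.unit (selB2 1 C0 5444517870735015415413948656508712474111) :=
  Ok2.run hw hf8 ⟨266,19,19,7,12⟩ 58
    (.chk false 512)
    (by decide +kernel)

theorem p0_9_0 : Ok2 par f9 Box3.unit (selB2 1 (selB2 1 C0 5444517870735015415413853729070669321727) 9007199254740991) :=
  Ok2.run hw hf9 ⟨316,19,19,13,13⟩ 58
    (.chk false 0)
    (by decide +kernel)

theorem p0_9_1 : Ok2 par f9 Box3.unit (selB2 0 (selB2 1 C0 5444517870735015415413853729070669321727) 9007199254740991) :=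
  Ok2.run hw hf9 ⟨316,19,19,13,13⟩ 58
    (.chk false 0)
    (by decide +kernel)

theorem p0_9_2 : Ok2 par f9 ((((Box3.unit.l 0).l 1).l 0).l 1) (selB2 0 (selB2 0 (selB2 0 (selB2 0 C0 5444517870735015415413853729070669321727) 65535) 4) 20) :=
  Ok2.run hw hf9 ⟨437,19,19,13,13⟩ 58
    (.part 60 (.chk false 0) (.split 0 (.chk false 0) (.chk false 0)))
    (by decide +kernel)

theorem p0_9_3 : Ok2 par f9 ((((Box3.unit.l 0).l 1).l 0).r 1) (selB2 0 (selB2 0 (selB2 0 (selB2 0 C0 5444517870735015415413853729070669321727) 65535) 4) 20) :=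
  Ok2.run hw hf9 ⟨449,19,19,13,13⟩ 58
    (.part 44 (.chk false 0) (.split 0 (.part 3 (.chk false 0) (.split 1 (.chk false 0) (.chk false 0))) (.chk false 0)))
    (by decide +kernel)

theorem p0_9_4 : Ok2 par f9 (((Box3.unit.l 0).l 1).l 0) (selB2 1 (selB2 0 (selB2 0 (selB2 0 C0 5444517870735015415413853729070669321727) 65535) 4) 20) :=
  Ok2.run hw hf9 ⟨395,19,19,13,13⟩ 58
    (.chk false 0)
    (by decide +kernel)

theorem p0_9_5 : Ok2 par f9 (((Box3.unit.l 0).l 1).r 0) (selB2 0 (selB2 0 (selB2 0 C0 5444517870735015415413853729070669321727) 65535) 4) :=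
  Ok2.run hw hf9 ⟨408,19,19,13,13⟩ 58
    (.part 252 (.chk false 0) (.split 1 (.chk false 0) (.chk false 0)))
    (by decide +kernel)

theorem p0_9_6 : Ok2 par f9 ((Box3.unit.l 0).l 1) (selB2 1 (selB2 0 (selB2 0 C0 5444517870735015415413853729070669321727) 65535) 4) :=
  Ok2.run hw hf9 ⟨373,19,19,13,13⟩ 58
    (.chk false 0)
    (by decide +kernel)

theorem p0_9_7 : Ok2 par f9 ((Box3.unit.l 0).r 1) (selB2 0 (selB2 0 C0 5444517870735015415413853729070669321727) 65535) :=
  Ok2.run hw hf9 ⟨449,19,19,13,13⟩ 58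
    (.part 503 (.chk false 0) (.split 0 (.split 1 (.split 0 (.split 1 (.chk false 0) (.chk false 0)) (.chk false 0)) (.chk false 0)) (.chk false 0)))
    (by decide +kernel)

theorem p0_9_8 : Ok2 par f9 (Box3.unit.r 0) (selB2 0 (selB2 0 C0 5444517870735015415413853729070669321727) 65535) :=
  Ok2.run hw hf9 ⟨345,19,19,13,13⟩ 58
    (.chk false 0)
    (by decide +kernel)


end Crest.Agent.R163.B5
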