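import Crest.Agent.R163.Q3.D.B5.P0_0
import Crest.Agent.R163.Q3.D.B5.P0_1
import Crest.Agent.R163.Q3.D.B5.P0_2

set_option autoImplicit false
set_option maxRecDepth 100000
set_option linter.all false
set_option Elab.async false

namespace Crest.Agent.R163.B5

theorem o0_9 : Ok2 par f9 Box3.unit C0 :=
  (Ok2.part 5444517870735015415413853729070669321727 (Ok2.part 9007199254740991 p0_9_0 p0_9_1) (Ok2.part 65535 p0_9_9 (Ok2.split 0 (Ok2.split 1 (Ok2.part 4 p0_9_6 (Ok2.split 0 (Ok2.part 20 p0_9_4 (Ok2.split 1 p0_9_2 p0_9_3)) p0_9_5)) p0_9_7) p0_9_8)))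
theorem o0_8 : Ok2 par f8 Box3.unit C0 :=
  (Ok2.part 5444517870735015415413948656508712474111 p0_8_2 (Ok2.part 32767 p0_8_0 p0_8_1))
theorem o0_7 : Ok2 par f7 Box3.unit C0 :=
  (Ok2.part 5444517870725382545761186205694418703871 p0_7_19 (Ok2.part 63 p0_7_18 (Ok2.split 0 (Ok2.part 537132799 p0_7_7 (Ok2.split 1 p0_7_6 (Ok2.split 0 (Ok2.part 1407 p0_7_3 (Ok2.split 1 p0_7_2 (Ok2.part 4 p0_7_0 p0_7_1))) (Ok2.part 127040 p0_7_4 p0_7_5)))) (Ok2.part 34343485448 p0_7_17 (Ok2.split 1 p0_7_16 (Ok2.part 3932281 p0_7_15 (Ok2.split 0 (Ok2.part 83 p0_7_13 (Ok2.split 1 p0_7_12 (Ok2.split 0 (Ok2.part 270 p0_7_10 (Ok2.split 1 p0_7_8 p0_7_9)) p0_7_11))) p0_7_14)))))))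
theorem o0_6 : Ok2 par f6 Box3.unit C0 :=
  (Ok2.part 5444517870731876895254979196905230172159 p0_6_8 (Ok2.split 0 p0_6_7 (Ok2.part 12582915 p0_6_6 (Ok2.split 1 (Ok2.part 256 p0_6_4 (Ok2.split 0 p0_6_3 (Ok2.split 1 (Ok2.part 11747 p0_6_0 p0_6_1) p0_6_2))) p0_6_5))))
theorem o0_5 : Ok2 par f5 Box3.unit C0 :=
  (Ok2.part 2722466636788547705881004787096312872959 p0_5_8 (Ok2.split 0 (Ok2.part 1082600194032 p0_5_2 (Ok2.split 0 p0_5_0 p0_5_1)) (Ok2.part 59928220335 p0_5_7 (Ok2.split 0 p0_5_6 (Ok2.part 16515072 p0_5_5 (Ok2.split 1 p0_5_3 p0_5_4))))))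
theorem o0_4 : Ok2 par f4 Box3.unit C0 :=
  p0_4_0
theorem o0_3 : Ok2 par f3 Box3.unit C0 :=
  (Ok2.part 2724543547899751809728180119592725643263 p0_3_17 (Ok2.split 1 (Ok2.part 69876162968414207 p0_3_3 (Ok2.split 0 (Ok2.part 67 p0_3_0 p0_3_1) p0_3_2)) (Ok2.part 2181435431598116 p0_3_16 (Ok2.split 1 (Ok2.part 548816281343 p0_3_6 (Ok2.split 0 p0_3_4 p0_3_5)) (Ok2.part 12919295182107 p0_3_15 (Ok2.split 0 p0_3_14 (Ok2.part 2149581440 p0_3_13 (Ok2.split 1 (Ok2.part 262009 p0_3_9 (Ok2.split 1 p0_3_7 p0_3_8)) (Ok2.part 268312711 p0_3_12 (Ok2.split 0 p0_3_10 p0_3_11))))))))))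
theorem o0_2 : Ok2 par f2 Box3.unit C0 :=
  (Ok2.part 4807153046756148254356618233022829821951 p0_2_3 (Ok2.split 1 (Ok2.part 3936 p0_2_0 p0_2_1) p0_2_2))
theorem o0_1 : Ok2 par f1 Box3.unit C0 :=
  p0_1_0
theorem o0_0 : Ok2 par f0 Box3.unit C0 :=
  p0_0_0

theorem pt0 : PtAll2 par C0 :=
  PtAll2.of_okD hw (OkD2.cover [f0.dom,f1.dom,f2.dom,f3.dom,f4.dom,f5.dom,f6.dom,f7.dom,f8.dom,f9.dom]
    (.split 0 (.split 0 (.leaf 0) (.leaf 1)) (.split 1 (.split 0 (.leaf 2) (.leaf 3)) (.split 0 (.split 1 (.leaf 4) (.leaf 5)) (.split 1 (.leaf 6) (.split 0 (.leaf 7) (.split 1 (.leaf 8) (.leaf 9)))))))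
    (by decide +kernel)
    (List.forall_mem_cons.2 ⟨OkD2.of_ok o0_0, (List.forall_mem_cons.2 ⟨OkD2.of_ok o0_1, (List.forall_mem_cons.2 ⟨OkD2.of_ok o0_2, (List.forall_mem_cons.2 ⟨OkD2.of_ok o0_3, (List.forall_mem_cons.2 ⟨OkD2.of_ok o0_4, (List.forall_mem_cons.2 ⟨OkD2.of_ok o0_5, (List.forall_mem_cons.2 ⟨OkD2.of_ok o0_6, (List.forall_mem_cons.2 ⟨OkD2.of_ok o0_7, (List.forall_mem_cons.2 ⟨OkD2.of_ok o0_8, (List.forall_mem_cons.2 ⟨OkD2.of_ok o0_9, (fun _ h => nomatch h)⟩)⟩)⟩)⟩)⟩)⟩)⟩)⟩)⟩)⟩))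

end Crest.Agent.R163.B5
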