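import Crest.Agent.R163.Q3.D.B5.S0
import Crest.Agent.R163.Q3.D.B5.H

set_option autoImplicit false
set_option maxRecDepth 100000
set_option linter.all false
set_option Elab.async false

namespace Crest.Agent.R163.B5

theorem p0_0_0 : Ok2 par f0 Box3.unit C0 :=
  Ok2.run hw hf0 ⟨261,19,19,7,12⟩ 58
    (.chk false 2048)
    (by decide +kernel)

theorem p0_1_0 : Ok2 par f1 Box3.unit C0 :=
  Ok2.run hw hf1 ⟨261,19,19,7,12⟩ 58
    (.chk false 2048)
    (by decide +kernel)

theorem p0_2_0 : Ok2 par f2 (Box3.unit.l 1) (selB2 1 (selB2 0 C0 4807153046756148254356618233022829821951) 3936) :=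
  Ok2.run hw hf2 ⟨289,19,19,7,12⟩ 58
    (.chk false 0)
    (by decide +kernel)

theorem p0_2_1 : Ok2 par f2 (Box3.unit.l 1) (selB2 0 (selB2 0 C0 4807153046756148254356618233022829821951) 3936) :=
  Ok2.run hw hf2 ⟨407,19,19,7,12⟩ 58
    (.split 0 (.chk false 0) (.part 1 (.chk false 0) (.split 0 (.part 30 (.chk false 0) (.split 1 (.split 0 (.split 1 (.split 0 (.chk false 0) (.chk false 0)) (.chk false 0)) (.chk false 0)) (.chk false 0))) (.part 3 (.chk false 0) (.split 1 (.part 4 (.chk false 0) (.split 0 (.part 2 (.chk false 0) (.split 1 (.chk false 0) (.chk false 0))) (.chk false 0))) (.chk false 0))))))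
    (by decide +kernel)

theorem p0_2_2 : Ok2 par f2 (Box3.unit.r 1) (selB2 0 C0 4807153046756148254356618233022829821951) :=
  Ok2.run hw hf2 ⟨289,19,19,7,12⟩ 58
    (.chk false 0)
    (by decide +kernel)

theorem p0_2_3 : Ok2 par f2 Box3.unit (selB2 1 C0 4807153046756148254356618233022829821951) :=
  Ok2.run hw hf2 ⟨261,19,19,7,12⟩ 58
    (.chk false 2048)
    (by decide +kernel)

theorem p0_3_0 : Ok2 par f3 ((Box3.unit.l 1).l 0) (selB2 1 (selB2 0 (selB2 0 C0 2724543547899751809728180119592725643263) 69876162968414207) 67) :=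
  Ok2.run hw hf3 ⟨319,19,19,7,12⟩ 58
    (.chk false 0)
    (by decide +kernel)

theorem p0_3_1 : Ok2 par f3 ((Box3.unit.l 1).l 0) (selB2 0 (selB2 0 (selB2 0 C0 2724543547899751809728180119592725643263) 69876162968414207) 67) :=
  Ok2.run hw hf3 ⟨446,19,19,7,12⟩ 58
    (.split 1 (.chk false 0) (.split 0 (.split 1 (.part 5 (.chk false 0) (.split 0 (.part 1 (.chk false 0) (.split 1 (.chk false 0) (.chk false 0))) (.part 1 (.chk false 0) (.split 1 (.chk false 0) (.chk false 0))))) (.part 3 (.chk false 0) (.split 0 (.part 2 (.chk false 0) (.split 1 (.split 0 (.split 1 (.chk false 0) (.chk false 0)) (.chk false 0)) (.chk false 0))) (.chk false 0)))) (.chk false 0)))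
    (by decide +kernel)

theorem p0_3_2 : Ok2 par f3 ((Box3.unit.l 1).r 0) (selB2 0 (selB2 0 C0 2724543547899751809728180119592725643263) 69876162968414207) :=
  Ok2.run hw hf3 ⟨451,19,19,7,12⟩ 58
    (.part 124 (.chk false 0) (.split 1 (.part 1 (.chk false 0) (.split 0 (.chk false 0) (.split 1 (.chk false 0) (.chk false 0)))) (.part 1 (.chk false 0) (.split 0 (.chk false 0) (.split 1 (.split 0 (.chk false 0) (.split 1 (.split 0 (.chk false 0) (.split 1 (.chk false 0) (.chk false 0))) (.chk false 0))) (.chk false 0))))))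
    (by decide +kernel)

theorem p0_3_3 : Ok2 par f3 (Box3.unit.l 1) (selB2 1 (selB2 0 C0 2724543547899751809728180119592725643263) 69876162968414207) :=
  Ok2.run hw hf3 ⟨290,19,19,7,12⟩ 58
    (.chk false 2048)
    (by decide +kernel)

theorem p0_3_4 : Ok2 par f3 (((Box3.unit.r 1).l 1).l 0) (selB2 0 (selB2 0 (selB2 0 C0 2724543547899751809728180119592725643263) 2181435431598116) 548816281343) :=
  Ok2.run hw hf3 ⟨406,19,19,7,12⟩ 58
    (.part 319 (.chk false 0) (.split 0 (.part 4 (.chk false 0) (.split 1 (.part 1 (.chk false 0) (.split 0 (.chk false 0) (.split 1 (.chk false 0) (.chk false 0)))) (.chk false 0))) (.part 3 (.chk false 0) (.split 1 (.chk false 0) (.split 1 (.split 0 (.chk false 0) (.chk false 0)) (.split 0 (.chk false 0) (.chk false 0)))))))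
    (by decide +kernel)

theorem p0_3_5 : Ok2 par f3 (((Box3.unit.r 1).l 1).r 0) (selB2 0 (selB2 0 (selB2 0 C0 2724543547899751809728180119592725643263) 2181435431598116) 548816281343) :=
  Ok2.run hw hf3 ⟨394,19,19,7,12⟩ 58
    (.part 738 (.chk false 0) (.split 1 (.chk false 0) (.part 25 (.chk false 0) (.split 1 (.chk false 0) (.split 0 (.chk false 0) (.chk false 0))))))
    (by decide +kernel)

theorem p0_3_6 : Ok2 par f3 ((Box3.unit.r 1).l 1) (selB2 1 (selB2 0 (selB2 0 C0 2724543547899751809728180119592725643263) 2181435431598116) 548816281343) :=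
  Ok2.run hw hf3 ⟨304,19,19,7,12⟩ 58
    (.chk false 2048)
    (by decide +kernel)

theorem p0_3_7 : Ok2 par f3 (((((Box3.unit.r 1).r 1).r 0).l 1).l 1) (selB2 0 (selB2 0 (selB2 0 (selB2 0 (selB2 0 C0 2724543547899751809728180119592725643263) 2181435431598116) 12919295182107) 2149581440) 262009) :=
  Ok2.run hw hf3 ⟨463,19,19,7,12⟩ 58
    (.part 2982 (.chk false 1024) (.split 0 (.part 61 (.chk false 512) (.split 1 (.split 0 (.chk false 0) (.split 1 (.chk false 0) (.split 0 (.chk false 0) (.chk false 0)))) (.chk false 0))) (.part 2 (.chk false 0) (.split 1 (.chk false 512) (.chk false 512)))))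
    (by decide +kernel)

theorem p0_3_8 : Ok2 par f3 (((((Box3.unit.r 1).r 1).r 0).l 1).r 1) (selB2 0 (selB2 0 (selB2 0 (selB2 0 (selB2 0 C0 2724543547899751809728180119592725643263) 2181435431598116) 12919295182107) 2149581440) 262009) :=
  Ok2.run hw hf3 ⟨416,19,19,7,12⟩ 58
    (.part 5631 (.chk false 1024) (.split 0 (.chk false 0) (.split 1 (.chk false 0) (.chk false 0))))
    (by decide +kernel)

theorem p0_3_9 : Ok2 par f3 ((((Box3.unit.r 1).r 1).r 0).l 1) (selB2 1 (selB2 0 (selB2 0 (selB2 0 (selB2 0 C0 2724543547899751809728180119592725643263) 2181435431598116) 12919295182107) 2149581440) 262009) :=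
  Ok2.run hw hf3 ⟨357,19,19,7,12⟩ 58
    (.chk false 2048)
    (by decide +kernel)

theorem p0_3_10 : Ok2 par f3 (((((Box3.unit.r 1).r 1).r 0).r 1).l 0) (selB2 0 (selB2 0 (selB2 0 (selB2 0 (selB2 0 C0 2724543547899751809728180119592725643263) 2181435431598116) 12919295182107) 2149581440) 268312711) :=
  Ok2.run hw hf3 ⟨374,19,19,7,12⟩ 58
    (.chk false 2048)
    (by decide +kernel)

theorem p0_3_11 : Ok2 par f3 (((((Box3.unit.r 1).r 1).r 0).r 1).r 0) (selB2 0 (selB2 0 (selB2 0 (selB2 0 (selB2 0 C0 2724543547899751809728180119592725643263) 2181435431598116) 12919295182107) 2149581440) 268312711) :=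
  Ok2.run hw hf3 ⟨477,19,19,7,12⟩ 58
    (.split 1 (.part 1535 (.chk false 2048) (.split 0 (.chk false 0) (.split 1 (.chk false 0) (.chk false 0)))) (.part 4087 (.chk false 2048) (.split 0 (.chk false 0) (.split 0 (.chk false 0) (.split 0 (.chk false 0) (.split 1 (.chk false 0) (.chk false 0)))))))
    (by decide +kernel)

theorem p0_3_12 : Ok2 par f3 ((((Box3.unit.r 1).r 1).r 0).r 1) (selB2 1 (selB2 0 (selB2 0 (selB2 0 (selB2 0 C0 2724543547899751809728180119592725643263) 2181435431598116) 12919295182107) 2149581440) 268312711) :=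
  Ok2.run hw hf3 ⟨361,19,19,7,12⟩ 58
    (.chk false 1024)
    (by decide +kernel)

theorem p0_3_13 : Ok2 par f3 (((Box3.unit.r 1).r 1).r 0) (selB2 1 (selB2 0 (selB2 0 (selB2 0 C0 2724543547899751809728180119592725643263) 2181435431598116) 12919295182107) 2149581440) :=
  Ok2.run hw hf3 ⟨341,19,19,7,12⟩ 58
    (.chk false 0)
    (by decide +kernel)

theorem p0_3_14 : Ok2 par f3 (((Box3.unit.r 1).r 1).l 0) (selB2 0 (selB2 0 (selB2 0 C0 2724543547899751809728180119592725643263) 2181435431598116) 12919295182107) :=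
  Ok2.run hw hf3 ⟨341,19,19,7,12⟩ 58
    (.chk false 2048)
    (by decide +kernel)

theorem p0_3_15 : Ok2 par f3 ((Box3.unit.r 1).r 1) (selB2 1 (selB2 0 (selB2 0 C0 2724543547899751809728180119592725643263) 2181435431598116) 12919295182107) :=
  Ok2.run hw hf3 ⟨312,19,19,7,12⟩ 58
    (.chk false 1024)
    (by decide +kernel)

theorem p0_3_16 : Ok2 par f3 (Box3.unit.r 1) (selB2 1 (selB2 0 C0 2724543547899751809728180119592725643263) 2181435431598116) :=
  Ok2.run hw hf3 ⟨290,19,19,7,12⟩ 58
    (.chk false 1024)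
    (by decide +kernel)

theorem p0_3_17 : Ok2 par f3 Box3.unit (selB2 1 C0 2724543547899751809728180119592725643263) :=
  Ok2.run hw hf3 ⟨262,19,19,7,12⟩ 58
    (.chk false 2048)
    (by decide +kernel)

theorem p0_4_0 : Ok2 par f4 Box3.unit C0 :=
  Ok2.run hw hf4 ⟨261,19,19,7,12⟩ 58
    (.chk false 2048)
    (by decide +kernel)

theorem p0_5_0 : Ok2 par f5 ((Box3.unit.l 0).l 0) (selB2 0 (selB2 0 C0 2722466636788547705881004787096312872959) 1082600194032) :=
  Ok2.run hw hf5 ⟨400,19,19,7,12⟩ 58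
    (.part 1022 (.chk false 0) (.split 1 (.chk false 0) (.split 1 (.chk false 0) (.split 0 (.split 0 (.chk false 0) (.chk false 0)) (.chk false 0)))))
    (by decide +kernel)

theorem p0_5_1 : Ok2 par f5 ((Box3.unit.l 0).r 0) (selB2 0 (selB2 0 C0 2722466636788547705881004787096312872959) 1082600194032) :=
  Ok2.run hw hf5 ⟨404,19,19,7,12⟩ 58
    (.part 79 (.chk false 0) (.split 1 (.chk false 0) (.part 2 (.chk false 0) (.split 0 (.chk false 0) (.part 7 (.chk false 0) (.split 1 (.chk false 0) (.split 0 (.chk false 0) (.split 1 (.chk false 0) (.chk false 0)))))))))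
    (by decide +kernel)

theorem p0_5_2 : Ok2 par f5 (Box3.unit.l 0) (selB2 1 (selB2 0 C0 2722466636788547705881004787096312872959) 1082600194032) :=
  Ok2.run hw hf5 ⟨289,19,19,7,12⟩ 58
    (.chk false 0)
    (by decide +kernel)

theorem p0_5_3 : Ok2 par f5 (((Box3.unit.r 0).r 0).l 1) (selB2 0 (selB2 0 (selB2 0 C0 2722466636788547705881004787096312872959) 59928220335) 16515072) :=
  Ok2.run hw hf5 ⟨340,19,19,7,12⟩ 58
    (.chk false 0)
    (by decide +kernel)

theorem p0_5_4 : Ok2 par f5 (((Box3.unit.r 0).r 0).r 1) (selB2 0 (selB2 0 (selB2 0 C0 2722466636788547705881004787096312872959) 59928220335) 16515072) :=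
  Ok2.run hw hf5 ⟨400,19,19,7,12⟩ 58
    (.part 131137 (.chk false 0) (.split 0 (.part 32671 (.chk false 0) (.split 1 (.chk false 0) (.split 0 (.chk false 0) (.chk false 0)))) (.part 32764 (.chk false 0) (.split 1 (.chk false 0) (.part 1 (.chk false 0) (.split 0 (.chk false 0) (.chk false 0)))))))
    (by decide +kernel)

theorem p0_5_5 : Ok2 par f5 ((Box3.unit.r 0).r 0) (selB2 1 (selB2 0 (selB2 0 C0 2722466636788547705881004787096312872959) 59928220335) 16515072) :=
  Ok2.run hw hf5 ⟨311,19,19,7,12⟩ 58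
    (.chk false 0)
    (by decide +kernel)

theorem p0_5_6 : Ok2 par f5 ((Box3.unit.r 0).l 0) (selB2 0 (selB2 0 C0 2722466636788547705881004787096312872959) 59928220335) :=
  Ok2.run hw hf5 ⟨351,19,19,7,12⟩ 58
    (.part 4718590 (.chk false 0) (.split 1 (.chk false 0) (.part 2 (.chk false 0) (.split 0 (.chk false 0) (.chk false 0)))))
    (by decide +kernel)

theorem p0_5_7 : Ok2 par f5 (Box3.unit.r 0) (selB2 1 (selB2 0 C0 2722466636788547705881004787096312872959) 59928220335) :=
  Ok2.run hw hf5 ⟨289,19,19,7,12⟩ 58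
    (.chk false 0)
    (by decide +kernel)

theorem p0_5_8 : Ok2 par f5 Box3.unit (selB2 1 C0 2722466636788547705881004787096312872959) :=
  Ok2.run hw hf5 ⟨261,19,19,7,12⟩ 58
    (.chk false 2048)
    (by decide +kernel)

theorem p0_6_0 : Ok2 par f6 ((((Box3.unit.r 0).l 1).r 0).l 1) (selB2 1 (selB2 0 (selB2 0 (selB2 0 C0 5444517870731876895254979196905230172159) 12582915) 256) 11747) :=
  Ok2.run hw hf6 ⟨363,19,19,7,12⟩ 58
    (.chk false 0)
    (by decide +kernel)


end Crest.Agent.R163.B5
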